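import Vale.Agent.P297.H581.Z2.Smooth
import Vale.Agent.P297.H65.Z2.G6

/-!
The general numerical Godeaux surface with torsion of order two: at the points of contact of a
line of `T_l` over `y` with the branch quartic, the derivative of the quartic in every direction
which is not the direction of the line is not zero.
-/

set_option linter.unusedSectionVars false
set_option linter.unusedVariables false

open Polynomial

namespace Vale.Agent.P297.H581.Z2

open Vale.Agent.P297 Vale.Agent.P297.Gen Vale.Agent.P297.H160.Z2Irr Vale.Agent.P297.H72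
open Vale.Agent.P297.Z2 Vale.Agent.P297.H927

variable {N : Type} [Field N] [Algebra ℂ N] {P : Par}

/-- The derivative of the branch quartic along a line over `y`. -/
theorem yline_der {l y p0 p1 r0 r1 s0 s1 s2 : N} (L : YLine P l y p0 p1 r0 r1 s0 s1 s2) (z : N) :
    Bp (dat P y) l (p0 + p1 * z) (r0 + r1 * z) * p1 +
      Br (dat P y) l (p0 + p1 * z) (r0 + r1 * z) * r1 =
    2 * (s0 + s1 * z + s2 * z ^ 2) * (s1 + 2 * s2 * z) := by
  have hm : (dat P y).map (C : N →+* N[X]) = dat P (C y : N[X]) := by
    have h1 := map_dat P ((Algebra.ofId N N[X]).restrictScalars ℂ) y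
    exact h1
  have h1 : derivative (((dat P y).map (C : N →+* N[X])).Bq (C l) (C p0 + C p1 * X)
      (C r0 + C r1 * X)) =
      Bp ((dat P y).map (C : N →+* N[X])) (C l) (C p0 + C p1 * X) (C r0 + C r1 * X) *
        derivative (C p0 + C p1 * X) +
      Br ((dat P y).map (C : N →+* N[X])) (C l) (C p0 + C p1 * X) (C r0 + C r1 * X) *
        derivative (C r0 + C r1 * X) +
      Bl ((dat P y).map (C : N →+* N[X])) (C l) (C p0 + C p1 * X) (C r0 + C r1 * X) *
        derivative (C l) := by
    let δ : Derivation ℤ N[X] N[X] := (Polynomial.derivative' (R := N)).restrictScalars ℤ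
    have hC : ∀ c : N, δ (C c) = 0 := fun c => derivative_C
    exact der_Bq (D := (dat P y).map (C : N →+* N[X])) (δ := δ) (hC _) (hC _) (hC _) (hC _)
      (hC _) (hC _) (hC _) (hC _) (C l) (C p0 + C p1 * X) (C r0 + C r1 * X)
  have h2 : (((dat P y).map (C : N →+* N[X]))).Bq (C l) (C p0 + C p1 * X) (C r0 + C r1 * X) =
      (C s0 + C s1 * X + C s2 * X ^ 2) ^ 2 := by
    rw [hm]
    exact L.eq
  rw [h2] at h1
  have h3 := congrArg (eval z) h1
  have e1 := map_Bp ((dat P y).map (C : N →+* N[X])) (evalRingHom z) (C l) (C p0 + C p1 * X)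
    (C r0 + C r1 * X)
  have e2 := map_Br ((dat P y).map (C : N →+* N[X])) (evalRingHom z) (C l) (C p0 + C p1 * X)
    (C r0 + C r1 * X)
  have e3 : ((dat P y).map (C : N →+* N[X])).map (evalRingHom z) = dat P y := by
    simp only [Dat.map, coe_evalRingHom, eval_C]
  rw [e3] at e1 e2
  simp only [coe_evalRingHom, eval_add, eval_mul, eval_C, eval_X] at e1 e2
  simp only [derivative_add, derivative_mul, derivative_C, derivative_X, derivative_pow,
    eval_add, eval_mul, eval_C, eval_X, zero_mul, mul_zero, zero_add,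
    add_zero, mul_one, eval_pow, e1, e2] at h3
  rw [← h3]
  push_cast
  ring

/-- **The derivative of the quartic at a point of contact of a line over `y`**, in every direction
other than that of the line. -/
theorem yline_tan [IsAlgClosed N] (h0 : P.P0 ≠ 0) (h2 : P.P2 ≠ 0) (hQ : P.Q0 ≠ P.Q1)
    (huv : P.u ≠ P.v) {l y p0 p1 r0 r1 s0 s1 s2 : N} (hi : AlgebraicIndependent ℂ ![l, y])
    (L : YLine P l y p0 p1 r0 r1 s0 s1 s2) {z : N} (hz : s0 + s1 * z + s2 * z ^ 2 = 0)
    {π ρ : N} (hd : π * r1 - ρ * p1 ≠ 0) :
    Bp (dat P y) l (p0 + p1 * z) (r0 + r1 * z) * π +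
      Br (dat P y) l (p0 + p1 * z) (r0 + r1 * z) * ρ ≠ 0 := by
  intro h
  have := charZero_of_C N
  have h1 := yline_der L z
  rw [hz] at h1
  have hB : tB P l (p0 + p1 * z) (r0 + r1 * z) y = 0 := by
    have h3 := H65.YLine_eval L z
    rw [h3, hz]
    ring
  refine smooth h0 h2 hQ huv hi hB ?_ ?_
  · apply mul_left_cancel₀ hd
    linear_combination r1 * h - ρ * h1
  · apply mul_left_cancel₀ hd
    linear_combination π * h1 - p1 * h

/-- The direction `(1, -1)`. -/
theorem yline_tan_one [IsAlgClosed N] (h0 : P.P0 ≠ 0) (h2 : P.P2 ≠ 0) (hQ : P.Q0 ≠ P.Q1)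
    (huv : P.u ≠ P.v) {l y p0 p1 r0 r1 s0 s1 s2 : N} (hi : AlgebraicIndependent ℂ ![l, y])
    (L : YLine P l y p0 p1 r0 r1 s0 s1 s2) {z : N} (hz : s0 + s1 * z + s2 * z ^ 2 = 0) :
    Bp (dat P y) l (p0 + p1 * z) (r0 + r1 * z) -
      Br (dat P y) l (p0 + p1 * z) (r0 + r1 * z) ≠ 0 := by
  have := charZero_of_C N
  have h1 := yline_tan h0 h2 hQ huv hi L hz (π := 1) (ρ := -1) (by
    intro h
    apply H65.YLine_dir hQ (hi.transcendental 1) L
    linear_combination (p1 - r1) * h)
  intro h
  apply h1
  linear_combination h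

/-- **A common good direction**: finitely many polynomials in one variable, none of them zero, have
a common value of the variable at which none vanishes. -/
theorem exists_good {ι : Type} [Finite ι] [IsAlgClosed N] (f : ι → N[X]) (hf : ∀ i, f i ≠ 0) :
    ∃ c : N, ∀ i, (f i).eval c ≠ 0 := by
  classical
  cases nonempty_fintype ι
  have h1 : (∏ i, f i) ≠ 0 := Finset.prod_ne_zero_iff.2 fun i _ => hf i
  obtain ⟨c, hc⟩ : ∃ c : N, (∏ i, f i).eval c ≠ 0 := by
    by_contra h
    push Not at h
    have := charZero_of_C N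
    exact h1 (Polynomial.funext fun x => by rw [h x, eval_zero])
  refine ⟨c, fun i hi => hc ?_⟩
  rw [eval_prod]
  exact Finset.prod_eq_zero (Finset.mem_univ i) hi

/-- **A common good direction** for finitely many functionals: if `κ i` is additive along the line
`a + c b` and not zero at `a` or at `b`. -/
theorem exists_dir {ι : Type} [Finite ι] [IsAlgClosed N] (x y : ι → N)
    (h : ∀ i, x i ≠ 0 ∨ y i ≠ 0) : ∃ c : N, c ≠ 0 ∧ ∀ i, x i + c * y i ≠ 0 := by
  obtain ⟨c, hc⟩ := exists_good (fun i : Option ι => match i with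
    | none => (X : N[X])
    | some i => C (x i) + X * C (y i)) (by
      intro i
      match i with
      | none => exact X_ne_zero
      | some i =>
        intro h0
        have e0 := congrArg (eval 0) h0
        have e1 := congrArg (eval 1) h0
        simp only [eval_add, eval_mul, eval_C, eval_X, eval_zero, zero_mul, add_zero, one_mul] at e0 e1
        rcases h i with h1 | h1
        · exact h1 e0
        · apply h1
          rw [e0, zero_add] at e1
          exact e1)
  refine ⟨c, ?_, fun i => ?_⟩
  · have := hc none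
    simpa using this
  · have h1 := hc (some i)
    simp only [eval_add, eval_mul, eval_C, eval_X] at h1
    exact h1

end Vale.Agent.P297.H581.Z2
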