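import Vale.Agent.P297.H637.Z2.Fam6
import Vale.Agent.P297.H430.Z2.Deg6

/-!
The denominator `Δ = δ ^ 3 (2 s ω - A3)` of the two-sections is not zero at the two points of the
conic at infinity.
-/

set_option linter.unusedSectionVars false
set_option linter.unusedVariables false

open Polynomial

namespace Vale.Agent.P297.H581.Z2

open Vale.Agent.P297 Vale.Agent.P297.Gen Vale.Agent.P297.H72 Vale.Agent.P297.H637
open Vale.Agent.P297.H160.Z2Irr Vale.Agent.P297.Z2

section ring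

variable {R R' : Type} [CommRing R] [CommRing R'] (D : FP R) (f : R →+* R')

theorem map_dl (u v : R) : (D.map f).dl (f u) (f v) = f (D.dl u v) := by
  simp only [FP.map, FP.dl, map_sub, map_mul, map_pow]

theorem map_ht (u v : R) : (D.map f).ht (f u) (f v) = f (D.ht u v) := by
  simp only [FP.map, FP.ht, map_sub, map_mul, map_ofNat]

theorem map_st (u v : R) : (D.map f).st (f u) (f v) = f (D.st u v) := by
  simp only [FP.map, FP.st, map_add, map_sub, map_mul, map_pow, map_neg]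

variable [Algebra ℂ R] (P : Par)

/-- The value of `Δ` at a zero of `δ`. -/
theorem dlt_of_dl (hn : D.be = D.al + 1 - D.l) {u : R} (hd : D.dl u 1 = 0) :
    D.dlt P u 1 = -(2 * D.ht u 1 ^ 3 * (D.k1 + D.k2) *
      ((D.k1 + D.k2) * ((D.k1 + D.k2) + (D.al + D.be) * (D.k1 - D.k2)) +
        (D.k1 - D.k2) * u)) := by
  have hu : D.b = u ^ 2 := by
    unfold FP.dl at hd
    linear_combination -hd
  have hst : D.st u 1 = u * D.ht u 1 := by
    unfold FP.st FP.ht
    rw [hu]
    ring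
  have e1 : (D.map (C : R →+* R[X])).dl (C u) (C 1) = 0 := by
    rw [map_dl, hd, map_zero]
  have e2 := map_ht D (C : R →+* R[X]) u 1
  have e3 := map_st D (C : R →+* R[X]) u 1
  rw [hst] at e3
  set H := D.ht u 1 with hH
  have key : D.HP P u 1 = C (-(2 * (D.k2 * H) ^ 2 * ((algebraMap ℂ R P.Q0 - D.l * algebraMap ℂ R P.u) *
      (D.k1 * H) + (algebraMap ℂ R P.Q1 - D.l * algebraMap ℂ R P.v) * (D.k2 * H) -
        (D.b1 * H + D.d * (u * H)))) - 2 * (D.k1 * H) ^ 2 *
      ((algebraMap ℂ R P.Q0 - D.l * algebraMap ℂ R P.u) * (D.k1 * H) +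
        (algebraMap ℂ R P.Q1 - D.l * algebraMap ℂ R P.v) * (D.k2 * H) +
        (D.b1 * H + D.d * (u * H))) - 4 * D.l * (D.k1 * H * (D.k2 * H)) *
      (algebraMap ℂ R P.v * (D.k1 * H) + algebraMap ℂ R P.u * (D.k2 * H))) +
      C (-(2 * H ^ 3 * (D.k1 + D.k2) *
      ((D.k1 + D.k2) * ((D.k1 + D.k2) + (D.al + D.be) * (D.k1 - D.k2)) +
        (D.k1 - D.k2) * u))) * X := by
    unfold FP.HP FP.hY FP.S1 FP.wt FP.pt FP.rt
    rw [e1]
    have e2' : (D.map (⇑(C : R →+* R[X]))).ht (C u) (C 1) = C H := e2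
    have e3' : (D.map (⇑(C : R →+* R[X]))).st (C u) (C 1) = C (u * H) := e3
    rw [e2', e3']
    have hA : ∀ z : ℂ, algebraMap ℂ R[X] z = C (algebraMap ℂ R z) := fun _ => rfl
    simp only [tCb, Dat.CF, Dat.kh, Dat.Eh, Dat.Fh, dat, fU, fV, fa, fc, fe, fm, FP.map, hn, hA,
      map_add, map_sub, map_mul, map_neg, map_pow, map_ofNat, map_one]
    ring
  unfold FP.dlt
  rw [key, coeff_add, coeff_C_mul, coeff_X_one, mul_one, coeff_C_of_ne_zero one_ne_zero, zero_add]

end ring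

section field

variable {L : Type} [Field L] [Algebra ℂ L] {P : Par} {D : FP L}

/-- **`Δ` is not zero at the zeros of `δ`.** -/
theorem dlt_ne (hn : D.be - D.al = 1 - D.l) (hb : D.b = (D.l ^ 2 + 4 * D.al * D.be) * (D.k1 + D.k2) ^ 2)
    (hk : D.k1 + D.k2 ≠ 0) (hg : H430.Z2.dg6 D.l D.al D.be D.k1 D.k2 ≠ 0)
    (ha : D.a ^ 2 - 4 * D.b * D.ss ^ 2 ≠ 0) {u : L} (hd : D.dl u 1 = 0) :
    D.dlt P u 1 ≠ 0 := by
  have := charZero_of_injective_algebraMap (algebraMap ℂ L).injective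
  have hu : D.b = u ^ 2 := by
    unfold FP.dl at hd
    linear_combination -hd
  rw [dlt_of_dl D P (by linear_combination hn) hd, neg_ne_zero]
  have hh : D.ht u 1 ≠ 0 := by
    intro h
    apply ha
    unfold FP.ht at h
    rw [hu]
    linear_combination (D.a + 2 * D.ss * u) * h
  refine mul_ne_zero (mul_ne_zero (mul_ne_zero two_ne_zero (pow_ne_zero 3 hh)) hk) ?_
  intro h
  apply hg
  have h1 := H430.Z2.dg6_eq hn D.k1 D.k2
  apply mul_left_cancel₀ (pow_ne_zero 2 hk)
  rw [← h1]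
  linear_combination ((D.k1 + D.k2) * ((D.k1 + D.k2) + (D.al + D.be) * (D.k1 - D.k2)) -
        (D.k1 - D.k2) * u) * h - (D.k1 - D.k2) ^ 2 * hu + (D.k1 - D.k2) ^ 2 * hb

/-- **The leading coefficient of `A2` on the planes is not zero.** -/
theorem lam_ne {l al be : L} (h2 : P.P2 ≠ 0) (hl : Transcendental ℂ l) (hn : IsNode P l al be) :
    l ^ 2 + 4 * al * be ≠ 0 := by
  have := charZero_of_injective_algebraMap (algebraMap ℂ L).injective
  intro h
  have e0 := hn.sub
  have e1 := hn.cub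
  have hl0 : l ≠ 0 := by
    rintro rfl
    exact hl isAlgebraic_zero
  obtain ⟨σ, hσ⟩ : ∃ σ, σ = al + be := ⟨_, rfl⟩
  have hs : σ ^ 2 = 1 - 2 * l := by
    rw [hσ]
    linear_combination h + (be - al + 1 - l) * e0
  have ha : 4 * al = -(1 - σ) ^ 2 := by
    linear_combination -2 * hσ - 2 * e0 + hs
  have hb : 4 * be = (1 + σ) ^ 2 := by
    linear_combination -2 * hσ + 2 * e0 - hs
  have hl' : 2 * l = 1 - σ ^ 2 := by linear_combination hs
  have e2 : (1 - σ ^ 2) * (algebraMap ℂ L P.Q0 * (1 - σ) ^ 2 + algebraMap ℂ L P.Q1 * (1 + σ) ^ 2) -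
      2 * (algebraMap ℂ L P.P0 * (1 - σ) ^ 4 + algebraMap ℂ L P.P1 * (1 - σ ^ 2) ^ 2 +
        algebraMap ℂ L P.P2 * (1 + σ) ^ 4) = 0 := by
    apply mul_left_cancel₀ hl0
    have hal : al = -(1 - σ) ^ 2 / 4 := by
      rw [eq_div_iff (by norm_num)]
      linear_combination ha
    have hbe : be = (1 + σ) ^ 2 / 4 := by
      rw [eq_div_iff (by norm_num)]
      linear_combination hb
    have hll : l = (1 - σ ^ 2) / 2 := by
      rw [eq_div_iff (by norm_num)]
      linear_combination hl'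
    rw [hal, hbe, hll] at e1
    rw [hll]
    linear_combination 32 * e1
  have e3 : IsAlgebraic ℂ σ := by
    refine ⟨(1 - X ^ 2) * (C P.Q0 * (1 - X) ^ 2 + C P.Q1 * (1 + X) ^ 2) -
      2 * (C P.P0 * (1 - X) ^ 4 + C P.P1 * (1 - X ^ 2) ^ 2 + C P.P2 * (1 + X) ^ 4), ?_, ?_⟩
    · intro h0
      have h3 := congrArg (eval 1) h0
      simp only [eval_sub, eval_mul, eval_add, eval_pow, eval_C, eval_X, eval_one, eval_zero,
        eval_ofNat] at h3
      apply h2
      linear_combination (-1 / 32) * h3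
    · simp only [map_sub, map_mul, map_add, map_pow, aeval_C, aeval_X, map_one, map_ofNat]
      exact e2
  apply hl
  have e4 : l = (1 - σ ^ 2) * algebraMap ℂ L (1 / 2) := by
    rw [map_div₀, map_one, map_ofNat]
    linear_combination (1 / 2) * hl'
  rw [e4]
  exact (isAlgebraic_one.sub (e3.pow 2)).mul (isAlgebraic_algebraMap _)

/-- The coefficient `b`. -/
theorem b_ne (h2 : P.P2 ≠ 0) (hl : Transcendental ℂ D.l) (hB : D.Base P)
    (hk : D.k1 + D.k2 ≠ 0) : D.b ≠ 0 := by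
  rw [hB.hb]
  exact mul_ne_zero (lam_ne h2 hl hB.node) (pow_ne_zero 2 hk)

end field

end Vale.Agent.P297.H581.Z2
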