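import Vale.Agent.P297.H288.K2.Place
import Vale.Agent.P297.H927.DerCl
import Vale.Agent.P297.H871.Z2.Z0
import Vale.Agent.P297.H600.Z42Clo

/-!
The general numerical Godeaux surface with torsion of order two: the plane quartics over the
general `y`, the branch curves of the fibres of the double solids `T_l`, are smooth.
-/

set_option linter.unusedSectionVars false
set_option linter.unusedVariables false

namespace Vale.Agent.P297.H581.Z2

open Vale.Agent.P297 Vale.Agent.P297.Gen Vale.Agent.P297.H160.Z2Irr Vale.Agent.P297.H72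
open Vale.Agent.P297.Z2 Vale.Agent.P297.H927

section ring

variable {R : Type*} [CommRing R] (D : Dat R)

/-- the derivative of the branch quartic with respect to `p` -/
def Bp (l p r : R) : R :=
  2 * D.K l p r * (2 * p + D.a - l * D.U) -
    4 * (2 * D.N p r * r - l * (r * (D.E p + D.F r) + D.N p r * D.V) +
      (l ^ 2 - l) * D.V * D.F r)

/-- the derivative of the branch quartic with respect to `r` -/
def Br (l p r : R) : R :=
  2 * D.K l p r * (2 * r + D.c - l * D.V) -
    4 * (2 * D.N p r * p - l * (p * (D.E p + D.F r) + D.N p r * D.U) +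
      (l ^ 2 - l) * D.E p * D.U)

/-- the derivative of the branch quartic with respect to `l` -/
def Bl (l p r : R) : R :=
  -(2 * D.K l p r * D.J1 p r) -
    4 * (-(D.N p r * (D.E p + D.F r)) + (2 * l - 1) * D.E p * D.F r)

/-- the homogeneous branch quartic -/
def Bh (l p r w : R) : R :=
  ((p + r) ^ 2 + w * (D.a * p + D.c * r) - w ^ 2 * D.m -
      l * w * (D.U * p + D.V * r - D.e * w) - 2 * (p * r - D.A * D.B * w ^ 2)) ^ 2 -
    4 * ((p * r - D.A * D.B * w ^ 2) ^ 2 - l * w * (p * r - D.A * D.B * w ^ 2) *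
      (D.V * p + D.B * D.U * w + (D.U * r + D.A * D.V * w)) +
      (l ^ 2 - l) * w ^ 2 * (D.V * p + D.B * D.U * w) * (D.U * r + D.A * D.V * w))

/-- its derivative with respect to the homogenising variable -/
def Ch (l p r w : R) : R :=
  2 * ((p + r) ^ 2 + w * (D.a * p + D.c * r) - w ^ 2 * D.m -
      l * w * (D.U * p + D.V * r - D.e * w) - 2 * (p * r - D.A * D.B * w ^ 2)) *
    (D.a * p + D.c * r - 2 * w * D.m - l * (D.U * p + D.V * r - D.e * w) + l * w * D.e +
      4 * D.A * D.B * w) -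
    4 * (-(4 * (p * r - D.A * D.B * w ^ 2) * (D.A * D.B * w)) -
      l * (p * r - D.A * D.B * w ^ 2) *
        (D.V * p + D.B * D.U * w + (D.U * r + D.A * D.V * w)) +
      2 * l * D.A * D.B * w ^ 2 * (D.V * p + D.B * D.U * w + (D.U * r + D.A * D.V * w)) -
      l * w * (p * r - D.A * D.B * w ^ 2) * (D.B * D.U + D.A * D.V) +
      2 * (l ^ 2 - l) * w * (D.V * p + D.B * D.U * w) * (D.U * r + D.A * D.V * w) +
      (l ^ 2 - l) * w ^ 2 * (D.B * D.U * (D.U * r + D.A * D.V * w) +
        D.A * D.V * (D.V * p + D.B * D.U * w)))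

theorem Bh_scale (l p r w : R) : Bh D l (p * w) (r * w) w = w ^ 4 * D.Bq l p r := by
  unfold Bh Dat.Bq Dat.K Dat.J0 Dat.J1 Dat.N Dat.E Dat.F
  ring

theorem Ch_scale (l p r w : R) : Ch D l (p * w) (r * w) w =
    w ^ 3 * (4 * D.Bq l p r - p * Bp D l p r - r * Br D l p r) := by
  unfold Ch Bp Br Dat.Bq Dat.K Dat.J0 Dat.J1 Dat.N Dat.E Dat.F
  ring

theorem Bh_zero (p r : R) : Bh D 0 p r 0 = (p ^ 2 - r ^ 2) ^ 2 := by
  unfold Bh
  ring

theorem Ch_zero (p r : R) : Ch D 0 p r 0 = 2 * (p ^ 2 + r ^ 2) * (D.a * p + D.c * r) := by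
  unfold Ch
  ring

variable {R' : Type*} [CommRing R'] (f : R →+* R')

theorem map_Bq (l p r : R) : f (D.Bq l p r) = (D.map f).Bq (f l) (f p) (f r) := by
  simp only [Dat.Bq, Dat.K, Dat.J0, Dat.J1, Dat.N, Dat.E, Dat.F, Dat.map, map_add, map_sub,
    map_mul, map_pow, map_ofNat]

theorem map_Bp (l p r : R) : f (Bp D l p r) = Bp (D.map f) (f l) (f p) (f r) := by
  simp only [Bp, Dat.K, Dat.J0, Dat.J1, Dat.N, Dat.E, Dat.F, Dat.map, map_add, map_sub,
    map_mul, map_pow, map_ofNat]

theorem map_Br (l p r : R) : f (Br D l p r) = Br (D.map f) (f l) (f p) (f r) := by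
  simp only [Br, Dat.K, Dat.J0, Dat.J1, Dat.N, Dat.E, Dat.F, Dat.map, map_add, map_sub,
    map_mul, map_pow, map_ofNat]

theorem map_Bl (l p r : R) : f (Bl D l p r) = Bl (D.map f) (f l) (f p) (f r) := by
  simp only [Bl, Dat.K, Dat.J0, Dat.J1, Dat.N, Dat.E, Dat.F, Dat.map, map_add, map_sub,
    map_mul, map_pow, map_ofNat, map_neg, map_one]

theorem map_Bh (l p r w : R) : f (Bh D l p r w) = Bh (D.map f) (f l) (f p) (f r) (f w) := by
  simp only [Bh, Dat.map, map_add, map_sub, map_mul, map_pow, map_ofNat]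

theorem map_Ch (l p r w : R) : f (Ch D l p r w) = Ch (D.map f) (f l) (f p) (f r) (f w) := by
  simp only [Ch, Dat.map, map_add, map_sub, map_mul, map_pow, map_ofNat, map_neg]

end ring

section der

variable {k : Type*} [CommRing k] {D : Dat k} {δ : Derivation ℤ k k}

/-- The derivative of the branch quartic along a derivation which kills the data. -/
theorem der_Bq (hU : δ D.U = 0) (hV : δ D.V = 0) (ha : δ D.a = 0) (hc : δ D.c = 0)
    (he : δ D.e = 0) (hm : δ D.m = 0) (hA : δ D.A = 0) (hB : δ D.B = 0) (l p r : k) :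
    δ (D.Bq l p r) = Bp D l p r * δ p + Br D l p r * δ r + Bl D l p r * δ l := by
  have h4 : δ (4 : k) = 0 := by
    have := δ.map_natCast 4
    simpa using this
  have h2 : δ (2 : k) = 0 := by
    have := δ.map_natCast 2
    simpa using this
  simp only [Dat.Bq, Dat.K, Dat.J0, Dat.J1, Dat.N, Dat.E, Dat.F, Bp, Br, Bl, map_add, map_sub,
    Derivation.leibniz, Derivation.leibniz_pow, smul_eq_mul, hU, hV, ha, hc, he, hm, hA, hB, h2, h4]
  ring

end der

section res

variable {M : Type} [Field M] [Algebra ℂ M] {P : Par}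

/-- The residue: at `l = 0` there is no singular point at which the derivative with respect to `l`
vanishes. -/
theorem res_finite (h0 : P.P0 ≠ 0) (h2 : P.P2 ≠ 0) (hQ : P.Q0 ≠ P.Q1) (huv : P.u ≠ P.v)
    {y p r : M} (hy : Transcendental ℂ y) (hB : (dat P y).Bq 0 p r = 0)
    (hp : Bp (dat P y) 0 p r = 0) (hr : Br (dat P y) 0 p r = 0)
    (hl : Bl (dat P y) 0 p r = 0) : False := by
  have := charZero_of_C M
  have h4M : (4 : M) ≠ 0 := by norm_num
  have hac : (dat P y).a ≠ (dat P y).c := by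
    intro h
    apply hQ
    apply (algebraMap ℂ M).injective
    change 2 * y + algebraMap ℂ M P.Q0 = 2 * y + algebraMap ℂ M P.Q1 at h
    exact add_left_cancel h
  have hac' : (dat P y).a + (dat P y).c ≠ 0 := by
    intro h
    apply hy
    change 2 * y + algebraMap ℂ M P.Q0 + (2 * y + algebraMap ℂ M P.Q1) = 0 at h
    have h1 : y = algebraMap ℂ M (-(P.Q0 + P.Q1) / 4) := by
      rw [map_div₀, map_neg, map_add, map_ofNat, eq_div_iff (by norm_num)]
      linear_combination h
    rw [h1]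
    exact isAlgebraic_algebraMap _
  have hA : (dat P y).A ≠ 0 := by
    change algebraMap ℂ M P.P0 ≠ 0
    rwa [Ne, map_eq_zero]
  have hBB : (dat P y).B ≠ 0 := by
    change algebraMap ℂ M P.P2 ≠ 0
    rwa [Ne, map_eq_zero]
  have hh : (dat P y).h 0 ≠ 0 := by
    intro h
    obtain ⟨z, hz, -⟩ := H871.Z2.exists_of_h0 h0 huv h
    apply hy
    rw [← hz]
    exact isAlgebraic_algebraMap _
  generalize hD : dat P y = D at *
  have e1 : D.J0 p r * (D.J0 p r - 4 * D.N p r) = 0 := by
    have h1 : D.Bq 0 p r = D.J0 p r * (D.J0 p r - 4 * D.N p r) := by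
      unfold Dat.Bq Dat.K
      ring
    rw [← h1, hB]
  unfold Bp Dat.K at hp
  unfold Br Dat.K at hr
  unfold Bl Dat.K at hl
  have eN : D.N p r = 0 ∧ D.J0 p r = 0 := by
    rcases mul_eq_zero.1 e1 with h1 | h1
    · have h3 : D.N p r * (D.a - D.c) = 0 := by
        rw [h1] at hp hr
        apply mul_left_cancel₀ h4M
        linear_combination hr - hp
      rcases mul_eq_zero.1 h3 with h4 | h4
      · exact ⟨h4, h1⟩
      · exact absurd (sub_eq_zero.1 h4) hac
    · have h2 : D.J0 p r = 4 * D.N p r := sub_eq_zero.1 h1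
      have h3 : D.N p r * (D.a + D.c) = 0 := by
        rw [h2] at hp hr
        apply mul_left_cancel₀ h4M
        linear_combination hr + hp
      rcases mul_eq_zero.1 h3 with h4 | h4
      · exact ⟨h4, by rw [h2, h4, mul_zero]⟩
      · exact absurd h4 hac'
  obtain ⟨hN, hJ⟩ := eN
  have hEF : D.E p * D.F r = 0 := by
    rw [hN, hJ] at hl
    apply mul_left_cancel₀ h4M
    linear_combination hl
  have hpr : p * r = D.A * D.B := sub_eq_zero.1 hN
  have hE : D.E p = 0 ∧ D.F r = 0 := by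
    rcases mul_eq_zero.1 hEF with h1 | h1
    · refine ⟨h1, ?_⟩
      apply mul_left_cancel₀ hBB
      unfold Dat.E at h1
      unfold Dat.F
      linear_combination r * h1 - D.V * hpr
    · refine ⟨?_, h1⟩
      apply mul_left_cancel₀ hA
      unfold Dat.F at h1
      unfold Dat.E
      linear_combination p * h1 - D.U * hpr
  apply hh
  have h3 : D.V * p = -(D.B * D.U) := by
    have := hE.1
    unfold Dat.E at this
    linear_combination this
  have h4 : D.U * r = -(D.A * D.V) := by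
    have := hE.2
    unfold Dat.F at this
    linear_combination this
  have h5 : D.U * D.V * (p + r) = -(D.B * D.U ^ 2 + D.A * D.V ^ 2) := by
    linear_combination D.U * h3 + D.V * h4
  unfold Dat.J0 at hJ
  unfold Dat.h
  linear_combination D.U ^ 2 * D.V ^ 2 * hJ -
    (D.U * D.V * (p + r) - (D.B * D.U ^ 2 + D.A * D.V ^ 2)) * h5 -
    D.a * D.U ^ 2 * D.V * h3 - D.c * D.U * D.V ^ 2 * h4

/-- The residue at infinity. -/
theorem res_infinite (hQ : P.Q0 ≠ P.Q1) {y p r : M} (hy : Transcendental ℂ y)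
    (hB : Bh (dat P y) 0 p r 0 = 0) (hC : Ch (dat P y) 0 p r 0 = 0) : p = 0 ∧ r = 0 := by
  have := charZero_of_C M
  have h4M : (4 : M) ≠ 0 := by norm_num
  have hac : (dat P y).a - (dat P y).c ≠ 0 := by
    intro h
    apply hQ
    apply (algebraMap ℂ M).injective
    change 2 * y + algebraMap ℂ M P.Q0 - (2 * y + algebraMap ℂ M P.Q1) = 0 at h
    linear_combination h
  have hac' : (dat P y).a + (dat P y).c ≠ 0 := by
    intro h
    apply hy
    change 2 * y + algebraMap ℂ M P.Q0 + (2 * y + algebraMap ℂ M P.Q1) = 0 at h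
    have h1 : y = algebraMap ℂ M (-(P.Q0 + P.Q1) / 4) := by
      rw [map_div₀, map_neg, map_add, map_ofNat, eq_div_iff (by norm_num)]
      linear_combination h
    rw [h1]
    exact isAlgebraic_algebraMap _
  rw [Bh_zero] at hB
  rw [Ch_zero] at hC
  generalize dat P y = D at *
  have h1 : (p - r) * (p + r) = 0 := by
    have := pow_eq_zero_iff (two_ne_zero) |>.1 hB
    linear_combination this
  rcases mul_eq_zero.1 h1 with h2 | h2
  · have h3 : p = r := sub_eq_zero.1 h2
    subst h3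
    have h4 : p ^ 3 * (D.a + D.c) = 0 := by
      apply mul_left_cancel₀ h4M
      linear_combination hC
    have h5 := pow_eq_zero_iff (three_ne_zero) |>.1 ((mul_eq_zero.1 h4).resolve_right hac')
    exact ⟨h5, h5⟩
  · have h3 : r = -p := by linear_combination h2
    subst h3
    have h4 : p ^ 3 * (D.a - D.c) = 0 := by
      apply mul_left_cancel₀ h4M
      linear_combination hC
    have h5 := pow_eq_zero_iff (three_ne_zero) |>.1 ((mul_eq_zero.1 h4).resolve_right hac)
    exact ⟨h5, by rw [h5, neg_zero]⟩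

end res

section main

variable {N : Type} [Field N] [Algebra ℂ N] [IsAlgClosed N] {P : Par}

/-- **The plane quartic of `T_l` over the general `y` is smooth at the finite points.** -/
theorem smooth (h0 : P.P0 ≠ 0) (h2 : P.P2 ≠ 0) (hQ : P.Q0 ≠ P.Q1) (huv : P.u ≠ P.v)
    {l y p r : N} (hi : AlgebraicIndependent ℂ ![l, y]) (hB : tB P l p r y = 0)
    (hp : Bp (dat P y) l p r = 0) (hr : Br (dat P y) l p r = 0) : False := by
  have hl : l ∉ cl0 {y} := Z42.notMem_cl0' hi
  have hyt : Transcendental ℂ y := hi.transcendental 1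
  obtain ⟨δ, hδ⟩ := exists_isDer hl
  have hyF : y ∈ cl0 ({y} : Set N) := subset_cl0 _ (Set.mem_singleton y)
  have hk : ∀ z : ℂ, δ (algebraMap ℂ N z) = 0 := fun z =>
    hδ.zero _ (IntermediateField.algebraMap_mem _ z)
  have hF : ∀ z ∈ cl0 ({y} : Set N), δ z = 0 := hδ.zero
  have hc : ∀ z : ℂ, algebraMap ℂ N z ∈ cl0 ({y} : Set N) := fun z =>
    IntermediateField.algebraMap_mem _ z
  have h2F : (2 : N) ∈ cl0 ({y} : Set N) := by
    have := hc 2
    rwa [map_ofNat] at this
  have hBl : Bl (dat P y) l p r = 0 := by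
    have h1 := der_Bq (D := dat P y) (δ := δ)
      (hF _ (add_mem hyF (hc _))) (hF _ (add_mem hyF (hc _)))
      (hF _ (add_mem (mul_mem h2F hyF) (hc _))) (hF _ (add_mem (mul_mem h2F hyF) (hc _)))
      (hF _ (add_mem (sub_mem (hc _) (pow_mem hyF 2)) (mul_mem (hc _) hyF)))
      (hF _ (add_mem (sub_mem (hc _) (pow_mem hyF 2)) (mul_mem (hc _) hyF)))
      (hk _) (hk _) l p r
    rw [show (dat P y).Bq l p r = 0 from hB, hp, hr, map_zero, hδ.one] at h1
    linear_combination -h1
  obtain ⟨M, V, hFM, hM, hlM, hlm, hl0⟩ := H288.K2.exists_place (F := cl0 ({y} : Set N))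
    (cl0_closed _) (k := l) (a := 0) hl (zero_mem _)
  have hl0' : V.p ⟨l, hlm⟩ = 0 := hl0
  let y' : M := ⟨y, hFM hyF⟩
  have hy' : Transcendental ℂ y' := by
    intro h
    apply hyt
    exact h.algebraMap (A := N)
  let cst : M →+* V.V := (algebraMap M N).codRestrict V.V V.mem
  have hcst : ∀ x : M, V.p (cst x) = x := V.const
  let DV : Dat V.V := (dat P y').map cst
  have hDs : DV.map V.V.subtype = dat P y := map_dat P M.val y'
  have hDp : DV.map V.p = dat P y' := by
    change Dat.mk _ _ _ _ _ _ _ _ = dat P y'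
    simp only [DV, Dat.map, hcst]
  let lv : V.V := ⟨l, hlm⟩
  have hh : ∀ z : V.V, (z : N) = 0 → V.p z = 0 := by
    intro z hz
    rw [show z = 0 from Subtype.ext hz, map_zero]
  have key1 : ∀ pv rv : V.V, (pv : N) = p → (rv : N) = r → False := by
    intro pv rv e1 e2
    have a1 : V.p (DV.Bq lv pv rv) = 0 := by
      apply hh
      have := map_Bq DV V.V.subtype lv pv rv
      rw [hDs] at this
      change (V.V.subtype (DV.Bq lv pv rv)) = 0
      rw [this]
      change (dat P y).Bq l (pv : N) (rv : N) = 0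
      rw [e1, e2]
      exact hB
    have a2 : V.p (Bp DV lv pv rv) = 0 := by
      apply hh
      have := map_Bp DV V.V.subtype lv pv rv
      rw [hDs] at this
      change (V.V.subtype (Bp DV lv pv rv)) = 0
      rw [this]
      change Bp (dat P y) l (pv : N) (rv : N) = 0
      rw [e1, e2]
      exact hp
    have a3 : V.p (Br DV lv pv rv) = 0 := by
      apply hh
      have := map_Br DV V.V.subtype lv pv rv
      rw [hDs] at this
      change (V.V.subtype (Br DV lv pv rv)) = 0
      rw [this]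
      change Br (dat P y) l (pv : N) (rv : N) = 0
      rw [e1, e2]
      exact hr
    have a4 : V.p (Bl DV lv pv rv) = 0 := by
      apply hh
      have := map_Bl DV V.V.subtype lv pv rv
      rw [hDs] at this
      change (V.V.subtype (Bl DV lv pv rv)) = 0
      rw [this]
      change Bl (dat P y) l (pv : N) (rv : N) = 0
      rw [e1, e2]
      exact hBl
    rw [map_Bq, hDp, hl0'] at a1
    rw [map_Bp, hDp, hl0'] at a2
    rw [map_Br, hDp, hl0'] at a3
    rw [map_Bl, hDp, hl0'] at a4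
    exact res_finite h0 h2 hQ huv hy' a1 a2 a3 a4
  have key2 : ∀ w pv rv : V.V, (pv : N) = p * w → (rv : N) = r * w → V.p w = 0 →
      V.p pv = 0 ∧ V.p rv = 0 := by
    intro w pv rv e1 e2 hw
    have a1 : V.p (Bh DV lv pv rv w) = 0 := by
      apply hh
      have := map_Bh DV V.V.subtype lv pv rv w
      rw [hDs] at this
      change (V.V.subtype (Bh DV lv pv rv w)) = 0
      rw [this]
      change Bh (dat P y) l (pv : N) (rv : N) (w : N) = 0
      rw [e1, e2, Bh_scale, show (dat P y).Bq l p r = 0 from hB, mul_zero]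
    have a2 : V.p (Ch DV lv pv rv w) = 0 := by
      apply hh
      have := map_Ch DV V.V.subtype lv pv rv w
      rw [hDs] at this
      change (V.V.subtype (Ch DV lv pv rv w)) = 0
      rw [this]
      change Ch (dat P y) l (pv : N) (rv : N) (w : N) = 0
      rw [e1, e2, Ch_scale, show (dat P y).Bq l p r = 0 from hB, hp, hr]
      ring
    rw [map_Bh, hDp, hl0', hw] at a1
    rw [map_Ch, hDp, hl0', hw] at a2
    exact res_infinite hQ hy' a1 a2
  have h10 : (V.p 1 : M) ≠ 0 := by
    rw [map_one]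
    exact one_ne_zero
  have inf : ∀ x : N, (¬ ∃ a, V.Val x a) → x ≠ 0 ∧ V.Val x⁻¹ 0 := by
    intro x hx
    refine ⟨?_, (V.val_or x).resolve_left hx⟩
    rintro rfl
    exact hx ⟨0, V.val_zero⟩
  by_cases hpf : ∃ a, V.Val p a
  · obtain ⟨a, ha1, ha2⟩ := hpf
    by_cases hrf : ∃ b, V.Val r b
    · obtain ⟨b, hb1, hb2⟩ := hrf
      exact key1 ⟨p, ha1⟩ ⟨r, hb1⟩ rfl rfl
    · obtain ⟨hr0, hr1, hr2⟩ := inf r hrf
      have h3 := (key2 ⟨r⁻¹, hr1⟩ (⟨p, ha1⟩ * ⟨r⁻¹, hr1⟩) 1 rfl
        (mul_inv_cancel₀ hr0).symm hr2).2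
      exact h10 h3
  · obtain ⟨hp0, hp1, hp2⟩ := inf p hpf
    by_cases hqf : ∃ b, V.Val (r * p⁻¹) b
    · obtain ⟨b, hb1, hb2⟩ := hqf
      have h3 := (key2 ⟨p⁻¹, hp1⟩ 1 ⟨r * p⁻¹, hb1⟩ (mul_inv_cancel₀ hp0).symm rfl hp2).1
      exact h10 h3
    · obtain ⟨hq0, hq1, hq2⟩ := inf _ hqf
      have hr0 : r ≠ 0 := left_ne_zero_of_mul hq0
      have e1 : r⁻¹ = p⁻¹ * (r * p⁻¹)⁻¹ := by
        field_simp
      have hw1 : r⁻¹ ∈ V.V := by
        rw [e1]
        exact V.V.mul_mem _ _ hp1 hq1
      have hw2 : V.p ⟨r⁻¹, hw1⟩ = 0 := by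
        have h3 : (⟨r⁻¹, hw1⟩ : V.V) = ⟨p⁻¹, hp1⟩ * ⟨(r * p⁻¹)⁻¹, hq1⟩ := Subtype.ext e1
        rw [h3, map_mul, hp2, zero_mul]
      have h3 := (key2 ⟨r⁻¹, hw1⟩ ⟨(r * p⁻¹)⁻¹, hq1⟩ 1 (by
        change (r * p⁻¹)⁻¹ = p * r⁻¹
        rw [mul_inv, inv_inv, mul_comm]) (mul_inv_cancel₀ hr0).symm hw2).2
      exact h10 h3

end main

end Vale.Agent.P297.H581.Z2
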